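import Vale.Agent.P211W98.Main2

open scoped Manifold ContDiff
open Bundle Vale.Agent.P211.NN Vale.Agent.P211Z Vale.Agent.P211Y

/-- Closed connected Riemannian four-manifolds `(M, g)`. (0) There is a Levi-Civita connection, it
is unique, and `M` has a universal Riemannian cover. Let `Ric = lam g`, `lam > 0`, and let the
sectional curvature be nonnegative. (1) Every universal Riemannian cover is compact and isometric,
as a Riemannian manifold, to the round sphere of radius `√(3 / lam)`, to the complex projective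
plane with `6 / lam` times the Fubini-Study metric, or to the product of two round two-spheres of
radius `√(1 / lam)`. (2) If `K > 0` at one point, then `M` itself is isometric to this sphere, to
its quotient by the antipodal map, or to this complex projective plane. -/
theorem Vale.Agent.Results.P211.AAIsometry.result
    {E : Type} [NormedAddCommGroup E] [NormedSpace ℝ E] [FiniteDimensional ℝ E]
    (hdim : Module.finrank ℝ E = 4)
    {M : Type} [TopologicalSpace M] [T2Space M] [CompactSpace M] [ConnectedSpace M]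
    [ChartedSpace E M] [IsManifold 𝓘(ℝ, E) ∞ M]
    [RiemannianBundle fun p : M => TangentSpace 𝓘(ℝ, E) p]
    [IsContMDiffRiemannianBundle 𝓘(ℝ, E) ∞ E fun p : M => TangentSpace 𝓘(ℝ, E) p] :
    (∃ cov : CovariantDerivative 𝓘(ℝ, E) E (TangentSpace 𝓘(ℝ, E) : M → Type), IsLeviCivita cov) ∧
    (∀ cov cov' : CovariantDerivative 𝓘(ℝ, E) E (TangentSpace 𝓘(ℝ, E) : M → Type),
      IsLeviCivita cov → IsLeviCivita cov' → ∀ Y : SmoothField E M, cov Y = cov' Y) ∧
    (∃ (N : Type) (_ : TopologicalSpace N) (_ : T2Space N) (_ : ChartedSpace E N)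
      (_ : IsManifold 𝓘(ℝ, E) ∞ N) (_ : RiemannianBundle fun p : N => TangentSpace 𝓘(ℝ, E) p)
      (_ : IsContMDiffRiemannianBundle 𝓘(ℝ, E) ∞ E fun p : N => TangentSpace 𝓘(ℝ, E) p)
      (φ : N → M), SimplyConnectedSpace N ∧ IsRiemannianCovering E φ) ∧
    ∀ cov : CovariantDerivative 𝓘(ℝ, E) E (TangentSpace 𝓘(ℝ, E) : M → Type), IsLeviCivita cov →
      SecNonneg cov → ∀ lam : ℝ, 0 < lam → RicciEq cov (fun _ => lam) →
      (∀ (N : Type) [TopologicalSpace N] [T2Space N] [ChartedSpace E N] [IsManifold 𝓘(ℝ, E) ∞ N]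
        [RiemannianBundle fun p : N => TangentSpace 𝓘(ℝ, E) p]
        [IsContMDiffRiemannianBundle 𝓘(ℝ, E) ∞ E fun p : N => TangentSpace 𝓘(ℝ, E) p]
        (φ : N → M), SimplyConnectedSpace N → IsRiemannianCovering E φ → CompactSpace N ∧
          (IsoS4 E N √(3 / lam) ∨ IsoProj E N ℂ 2 √(6 / lam) ∨ IsoS2S2 E N √(1 / lam))) ∧
      ((∃ p : M, ∀ X Y : SmoothField E M, LinearIndependent ℝ ![X p, Y p] →
          0 < Rm cov X Y Y X p) →
        IsoS4 E M √(3 / lam) ∨ IsoProj E M ℝ 4 √(3 / lam) ∨ IsoProj E M ℂ 2 √(6 / lam)) := by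
  simpa only [s4_iff, s2s2_iff, proj_iff, lc_iff] using Vale.Agent.P211W.main (M := M) hdim
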